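import Vale.Agent.P281.H283.KD.Gen
import Vale.Agent.P281.H156.MFS.StepM

/-! P281, theorem MFS, block M-MK (`MassPartM`). -/

open scoped Manifold ContDiff Topology ComplexOrder
open Set Filter Vale.Agent.P272.K Vale.Agent.P272.K.AMP Vale.Agent.P299
open Vale.Agent.P299.H882
open Vale.Agent.P272.K.INT (intX IsClosedForm)

set_option linter.all false

noncomputable section

namespace Vale.Agent.P281.H283.MFS

open Vale.Agent.P281.H167.GM Vale.Agent.P281.H283.GME Vale.Agent.P281.H713.KD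
open Vale.Agent.P281.H283.KD Vale.Agent.P281.H156.MFS

/-- **Block M-MK** -/
theorem massPartM (c0 : C0Part) (int : IntPart) (log : LogPart) (bd : BdPart) : MassPartM := by
  intro n M X _ _ _ _ _ _ G hG φ hφ m hm ρ hρ hρ0 hρne Dv r R hbd dl hdl α hα C hcurv h hh hhne
    C' κ hκ
  obtain ⟨-, ⟨Cb, hCb0, hCb⟩, -⟩ := bd n M X G hG Dv r R hbd
  have hr : ∀ x, 0 < ρ x + 1 := fun x => by have := hρ0 x; linarith
  refine massP c0 int log bd hG hφ hm hρ hρ0 hρne hbd hdl (C := C) (P := α) hα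
    (fun e x hx => ?_) (fun δ hδ e x hx => hcurv δ hδ e x hx) hh hhne C' hκ
  -- `α` is Hermitian
  have hGh : (G e (e x)).IsHermitian := (hG.posDef e x hx).1
  have hsm : ∀ (c : ℝ) {A : Matrix (Fin n) (Fin n) ℂ}, A.IsHermitian →
      ((c : ℂ) • A).IsHermitian := fun c A hA => by
    unfold Matrix.IsHermitian at hA ⊢
    rw [Matrix.conjTranspose_smul, hA]
    simp
  have hRh : ∀ i, (R i e (e x)).IsHermitian := fun i => by
    have h1 := (hCb i e x hx).1.1
    have h2 := (hsm Cb hGh).sub h1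
    rwa [sub_sub_cancel] at h2
  have hcan := isCanonical_phiD (m := m) hφ hρ hρ0 one_pos
  have h1 : (cHess (phiD φ m ρ 1 e) (e x)).IsHermitian :=
    C2.cHess_isHermitian ((hcan.smooth e x hx).of_le (by norm_cast))
  have h2 : (∑ i, ((dl i : ℝ) : ℂ) • R i e (e x)).IsHermitian := by
    unfold Matrix.IsHermitian
    rw [Matrix.conjTranspose_sum]
    exact Finset.sum_congr rfl fun i _ => hsm (dl i) (hRh i)
  have h3 := (hcurv 1 one_pos e x hx).1
  have h4 := (h3.sub (hsm (C * (1 / (ρ x + 1))) hGh)).sub (h1.add h2)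
  have h5 : curvM φ m ρ 1 dl R α e (e x) + ((C * (1 / (ρ x + 1)) : ℝ) : ℂ) • G e (e x) -
      ((C * (1 / (ρ x + 1)) : ℝ) : ℂ) • G e (e x) -
      (cHess (phiD φ m ρ 1 e) (e x) + ∑ i, ((dl i : ℝ) : ℂ) • R i e (e x)) = α e (e x) := by
    have h6 : curvM φ m ρ 1 dl R α e (e x) = cHess (phiD φ m ρ 1 e) (e x) +
      (∑ i, ((dl i : ℝ) : ℂ) • R i e (e x)) + α e (e x) := rfl
    rw [h6]
    abel
  rwa [h5] at h4

end Vale.Agent.P281.H283.MFS
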